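import Mathlib
import Vale.Agent.P063.Defs
import Vale.Agent.P063.Width

/-!
The Friedgut–Kalai threshold-width bound for graphs (`r = 2`) and for hypergraphs (`r ≥ 3`).
-/

namespace Vale.Agent.Results.P063.ThresholdWidth

open Vale.Agent.P063

theorem result :
    ∀ r : ℕ, 2 ≤ r → ∀ ε : ℝ, 0 < ε → ε < 1 / 2 →
      ∃ C : ℝ, 0 < C ∧ ∀ n : ℕ, r ≤ n → ∀ P : Set (Hypergraph n r),
        IsInvariant P → IsIncreasing P → P.Nonempty → P ≠ Set.univ →
          width ε P ≤ C * Real.log n ^ (-((r : ℝ) / ((r : ℝ) - 1))) := by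
  intro r hr ε hε hε2
  obtain ⟨C, hC, h⟩ := width_bound r hr ε hε hε2
  exact ⟨C, hC, fun n hn P h1 h2 h3 _ => h n hn P h1 h2 h3⟩

end Vale.Agent.Results.P063.ThresholdWidth
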